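import Mathlib

/-!
First rows of circulant Hadamard matrices have small sums on arithmetic progressions: a sum `S` over a
progression of `L` distinct elements of `ℤ/n` satisfies `|S|³ + 2|S| ≤ 3 n L`, and a run of `L` equal
signs has `L² + 2 ≤ 3 n`.

Proof: the window sums `S(k) = ∑_{i<L} h (k + i g)` satisfy `∑_k S(k)² = n L` since all autocorrelations
vanish, and they change by at most `2` when `k` moves by `g`, so one large window forces many large
windows.
-/

namespace Vale.Agent.Results.P033.A_discrepancy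

open Finset

variable {n : ℕ} [NeZero n]

/-- The sum over the progression `k, k + g, …, k + (L - 1) g`. -/
def win (h : ZMod n → ℤ) (g : ZMod n) (L : ℕ) (k : ZMod n) : ℤ :=
  ∑ i ∈ range L, h (k + (i : ZMod n) * g)

theorem sum_win_sq (h : ZMod n → ℤ) (hs : ∀ x, h x = 1 ∨ h x = -1)
    (hP : ∀ t : ZMod n, t ≠ 0 → ∑ j, h j * h (j + t) = 0) (g : ZMod n) (L : ℕ)
    (hinj : ∀ i < L, ∀ j < L, (i : ZMod n) * g = (j : ZMod n) * g → i = j) :
    ∑ k : ZMod n, win h g L k ^ 2 = (n : ℤ) * L := by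
  have hdiag : ∑ j : ZMod n, h j * h j = n := by
    have : ∀ j : ZMod n, h j * h j = 1 := by
      intro j
      rcases hs j with hj | hj <;> rw [hj] <;> norm_num
    simp [this, ZMod.card]
  have hpair : ∀ i ∈ range L, ∀ j ∈ range L,
      ∑ k : ZMod n, h (k + (i : ZMod n) * g) * h (k + (j : ZMod n) * g)
        = if i = j then (n : ℤ) else 0 := by
    intro i hi j hj
    have e : ∑ k : ZMod n, h (k + (i : ZMod n) * g) * h (k + (j : ZMod n) * g)
        = ∑ k : ZMod n, h k * h (k + ((j : ZMod n) * g - (i : ZMod n) * g)) := by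
      refine Fintype.sum_equiv (Equiv.addRight ((i : ZMod n) * g)) _ _ fun k => ?_
      simp only [Equiv.coe_addRight]
      congr 2
      ring
    rw [e]
    split_ifs with hij
    · subst hij
      simpa using hdiag
    · refine hP _ fun h0 => hij ?_
      exact (hinj j (mem_range.mp hj) i (mem_range.mp hi) (sub_eq_zero.mp h0)).symm
  calc ∑ k : ZMod n, win h g L k ^ 2
      = ∑ k : ZMod n, ∑ i ∈ range L, ∑ j ∈ range L,
          h (k + (i : ZMod n) * g) * h (k + (j : ZMod n) * g) := by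
        refine Finset.sum_congr rfl fun k _ => ?_
        rw [win, sq, Finset.sum_mul_sum]
    _ = ∑ i ∈ range L, ∑ j ∈ range L, ∑ k : ZMod n,
          h (k + (i : ZMod n) * g) * h (k + (j : ZMod n) * g) := by
        rw [Finset.sum_comm]
        refine Finset.sum_congr rfl fun i _ => ?_
        rw [Finset.sum_comm]
    _ = ∑ i ∈ range L, ∑ j ∈ range L, (if i = j then (n : ℤ) else 0) :=
        Finset.sum_congr rfl fun i hi => Finset.sum_congr rfl fun j hj => hpair i hi j hj
    _ = (n : ℤ) * L := by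
        have : ∀ i ∈ range L, ∑ j ∈ range L, (if i = j then (n : ℤ) else 0) = n := by
          intro i hi
          rw [Finset.sum_ite_eq]
          simp [hi]
        rw [Finset.sum_congr rfl this]
        simp [mul_comm]

theorem win_step (h : ZMod n → ℤ) (hs : ∀ x, h x = 1 ∨ h x = -1) (g : ZMod n) (L : ℕ)
    (k : ZMod n) : |win h g L (k + g) - win h g L k| ≤ 2 := by
  have e1 : win h g L k + h (k + (L : ZMod n) * g) = h k + win h g L (k + g) := by
    unfold win
    rw [← Finset.sum_range_succ, Finset.sum_range_succ']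
    have : ∀ i ∈ range L, h (k + ((i + 1 : ℕ) : ZMod n) * g) = h (k + g + (i : ZMod n) * g) := by
      intro i _
      congr 1
      push_cast
      ring
    rw [Finset.sum_congr rfl this]
    simp [add_comm]
  have h1 := hs k
  have h2 := hs (k + (L : ZMod n) * g)
  rw [abs_le]
  rcases h1 with h1 | h1 <;> rcases h2 with h2 | h2 <;> rw [h1, h2] at e1 <;>
    constructor <;> linarith

theorem win_lip (h : ZMod n → ℤ) (hs : ∀ x, h x = 1 ∨ h x = -1) (g : ZMod n) (L t : ℕ)
    (k : ZMod n) : |win h g L (k + (t : ZMod n) * g) - win h g L k| ≤ 2 * t := by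
  induction t with
  | zero => simp
  | succ t ih =>
    have e : k + ((t + 1 : ℕ) : ZMod n) * g = k + (t : ZMod n) * g + g := by
      push_cast
      ring
    have h1 := win_step h hs g L (k + (t : ZMod n) * g)
    rw [e]
    rw [abs_le] at h1 ih ⊢
    push_cast
    constructor <;> linarith [h1.1, h1.2, ih.1, ih.2]

theorem win_abs_le (h : ZMod n → ℤ) (hs : ∀ x, h x = 1 ∨ h x = -1) (g : ZMod n) (L : ℕ)
    (k : ZMod n) : |win h g L k| ≤ L := by
  unfold win
  calc |∑ i ∈ range L, h (k + (i : ZMod n) * g)|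
      ≤ ∑ i ∈ range L, |h (k + (i : ZMod n) * g)| := Finset.abs_sum_le_sum_abs _ _
    _ ≤ ∑ _i ∈ range L, (1 : ℤ) := by
        refine Finset.sum_le_sum fun i _ => ?_
        rcases hs (k + (i : ZMod n) * g) with h1 | h1 <;> rw [h1] <;> norm_num
    _ = L := by simp

/-- The sum of the squares `δ², …` around the peak. -/
theorem closed_sum (δ : ℤ) (q : ℕ) :
    3 * (2 * ∑ i ∈ range q, (2 * (i : ℤ) + δ) ^ 2 + (2 * (q : ℤ) + δ) ^ 2)
      = (2 * (q : ℤ) + δ) ^ 3 + 2 * (2 * (q : ℤ) + δ) + (δ ^ 2 * 3 - δ ^ 3 - 2 * δ) := by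
  induction q with
  | zero => simp; ring
  | succ q ih =>
    rw [Finset.sum_range_succ]
    push_cast
    linarith [ih]

/-- One large window forces the bound, with a positive window sum `s = 2 q + δ`. -/
theorem main_pos (h : ZMod n → ℤ) (hs : ∀ x, h x = 1 ∨ h x = -1)
    (hP : ∀ t : ZMod n, t ≠ 0 → ∑ j, h j * h (j + t) = 0) (g : ZMod n) (L : ℕ)
    (hinj : ∀ i < L, ∀ j < L, (i : ZMod n) * g = (j : ZMod n) * g → i = j)
    (a : ZMod n) (q : ℕ) (δ : ℤ) (hδ : δ = 1 ∨ δ = 2) (hS : win h g L a = 2 * (q : ℤ) + δ) :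
    (2 * (q : ℤ) + δ) ^ 3 + 2 * (2 * (q : ℤ) + δ) ≤ 3 * ((n : ℤ) * L) := by
  have hδ1 : 1 ≤ δ := by rcases hδ with h | h <;> omega
  have hL : 2 * q + 1 ≤ L := by
    have := win_abs_le h hs g L a
    rw [hS, abs_le] at this
    omega
  set b : ZMod n := a - (q : ZMod n) * g with hb
  have hba : b + (q : ZMod n) * g = a := by rw [hb]; ring
  set f : ℕ → ZMod n := fun d => b + (d : ZMod n) * g with hf
  have hfinj : Set.InjOn f (range (2 * q + 1) : Set ℕ) := by
    intro i hi j hj hij
    have hi' : i < 2 * q + 1 := by simpa using hi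
    have hj' : j < 2 * q + 1 := by simpa using hj
    exact hinj i (by omega) j (by omega) (add_left_cancel hij)
  have hsum : ∑ d ∈ range (2 * q + 1), win h g L (f d) ^ 2 ≤ (n : ℤ) * L := by
    rw [← sum_win_sq h hs hP g L hinj, ← Finset.sum_image (f := fun k => win h g L k ^ 2) hfinj]
    exact Finset.sum_le_sum_of_subset_of_nonneg (Finset.subset_univ _)
      fun _ _ _ => sq_nonneg _
  have hsplit : ∑ d ∈ range (2 * q + 1), win h g L (f d) ^ 2
      = ∑ d ∈ range q, win h g L (f d) ^ 2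
        + ∑ e ∈ range (q + 1), win h g L (f (q + e)) ^ 2 := by
    rw [show 2 * q + 1 = q + (q + 1) by ring, Finset.sum_range_add]
  have hleft : ∑ i ∈ range q, (2 * (i : ℤ) + δ) ^ 2 ≤ ∑ d ∈ range q, win h g L (f d) ^ 2 := by
    refine Finset.sum_le_sum fun d hd => ?_
    have hd' : d < q := mem_range.mp hd
    have hlip := win_lip h hs g L (q - d) (f d)
    have e : f d + ((q - d : ℕ) : ZMod n) * g = a := by
      rw [← hba, hf]
      simp only
      rw [Nat.cast_sub hd'.le]
      ring
    rw [e, hS, abs_le] at hlip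
    have hpos : 0 ≤ 2 * (d : ℤ) + δ := by omega
    have hge : 2 * (d : ℤ) + δ ≤ win h g L (f d) := by
      have := hlip.2
      rw [Nat.cast_sub hd'.le] at this
      linarith
    exact pow_le_pow_left₀ hpos hge 2
  have hright : ∑ i ∈ range (q + 1), (2 * (i : ℤ) + δ) ^ 2
      ≤ ∑ e ∈ range (q + 1), win h g L (f (q + e)) ^ 2 := by
    rw [← Finset.sum_range_reflect (fun e => win h g L (f (q + e)) ^ 2) (q + 1)]
    refine Finset.sum_le_sum fun i hi => ?_
    have hi' : i < q + 1 := mem_range.mp hi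
    have hlip := win_lip h hs g L (q - i) a
    have e : a + ((q - i : ℕ) : ZMod n) * g = f (q + (q + 1 - 1 - i)) := by
      rw [hf]
      simp only
      rw [← hba, show q + 1 - 1 - i = q - i by omega]
      push_cast
      ring
    rw [e, hS, abs_le] at hlip
    have hpos : 0 ≤ 2 * (i : ℤ) + δ := by omega
    have hge : 2 * (i : ℤ) + δ ≤ win h g L (f (q + (q + 1 - 1 - i))) := by
      have := hlip.1
      rw [Nat.cast_sub (by omega : i ≤ q)] at this
      linarith
    exact pow_le_pow_left₀ hpos hge 2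
  have hcl := closed_sum δ q
  have hδz : δ ^ 2 * 3 - δ ^ 3 - 2 * δ = 0 := by
    rcases hδ with h | h <;> rw [h] <;> norm_num
  rw [hδz, add_zero] at hcl
  rw [Finset.sum_range_succ] at hright
  rw [← hcl]
  linarith

/-- The bound on a sum over a progression of `L` distinct elements, for all signs of the sum. -/
theorem main_abs (h : ZMod n → ℤ) (hs : ∀ x, h x = 1 ∨ h x = -1)
    (hP : ∀ t : ZMod n, t ≠ 0 → ∑ j, h j * h (j + t) = 0) (g : ZMod n) (L : ℕ)
    (hinj : ∀ i < L, ∀ j < L, (i : ZMod n) * g = (j : ZMod n) * g → i = j) (a : ZMod n) :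
    |win h g L a| ^ 3 + 2 * |win h g L a| ≤ 3 * ((n : ℤ) * L) := by
  have key : ∀ (h' : ZMod n → ℤ), (∀ x, h' x = 1 ∨ h' x = -1) →
      (∀ t : ZMod n, t ≠ 0 → ∑ j, h' j * h' (j + t) = 0) → 0 < win h' g L a →
      win h' g L a ^ 3 + 2 * win h' g L a ≤ 3 * ((n : ℤ) * L) := by
    intro h' hs' hP' hpos
    obtain ⟨q, δ, hδ, hq⟩ : ∃ (q : ℕ) (δ : ℤ), (δ = 1 ∨ δ = 2) ∧ win h' g L a = 2 * (q : ℤ) + δ := by
      refine ⟨((win h' g L a - 1) / 2).toNat, (win h' g L a - 1) % 2 + 1, ?_, ?_⟩ <;> omega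
    rw [hq]
    exact main_pos h' hs' hP' g L hinj a q δ hδ hq
  rcases lt_trichotomy (win h g L a) 0 with hneg | h0 | hpos
  · have hneg' : win (fun x => - h x) g L a = - win h g L a := by
      simp [win]
    have hk := key (fun x => - h x)
      (fun x => by rcases hs x with h1 | h1 <;> simp [h1])
      (fun t ht => by simpa using hP t ht)
      (by rw [hneg']; omega)
    rw [hneg'] at hk
    rwa [abs_of_neg hneg]
  · rw [h0]
    have : (0 : ℤ) ≤ 3 * ((n : ℤ) * L) := by positivity
    simpa using this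
  · rw [abs_of_pos hpos]
    exact key h hs hP hpos

/-- For a real circulant Hadamard matrix of order `n` with first row `h` (signs on `ℤ/n`, all
periodic autocorrelations at `t ≠ 0` zero):
(1) the sum `S` of `h` over any arithmetic progression `a, a + g, …, a + (L - 1) g` of `L` distinct
elements of `ℤ/n` satisfies `|S|³ + 2 |S| ≤ 3 n L`;
(2) any run of `L` cyclically consecutive equal signs, `1 ≤ L ≤ n`, has `L² + 2 ≤ 3 n`. -/
theorem result (n : ℕ) [NeZero n] (h : ZMod n → ℤ) (hs : ∀ x, h x = 1 ∨ h x = -1)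
    (hP : ∀ t : ZMod n, t ≠ 0 → ∑ j, h j * h (j + t) = 0) :
    (∀ (a g : ZMod n) (L : ℕ),
      (∀ i < L, ∀ j < L, (i : ZMod n) * g = (j : ZMod n) * g → i = j) →
      |∑ i ∈ range L, h (a + (i : ZMod n) * g)| ^ 3
          + 2 * |∑ i ∈ range L, h (a + (i : ZMod n) * g)| ≤ 3 * ((n : ℤ) * L)) ∧
    (∀ (a : ZMod n) (L : ℕ), 1 ≤ L → L ≤ n → (∀ i < L, h (a + (i : ZMod n)) = h a) →
      (L : ℤ) ^ 2 + 2 ≤ 3 * (n : ℤ)) := by
  refine ⟨fun a g L hinj => main_abs h hs hP g L hinj a, fun a L hL1 hLn hrun => ?_⟩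
  have hinj : ∀ i < L, ∀ j < L, (i : ZMod n) * (1 : ZMod n) = (j : ZMod n) * 1 → i = j := by
    intro i hi j hj hij
    simp only [mul_one] at hij
    have hi' : i < n := by omega
    have hj' : j < n := by omega
    have := (ZMod.natCast_eq_natCast_iff' i j n).mp hij
    rwa [Nat.mod_eq_of_lt hi', Nat.mod_eq_of_lt hj'] at this
  have hm := main_abs h hs hP 1 L hinj a
  have hwin : win h 1 L a = (L : ℤ) * h a := by
    unfold win
    have : ∀ i ∈ range L, h (a + (i : ZMod n) * 1) = h a := by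
      intro i hi
      rw [mul_one]
      exact hrun i (mem_range.mp hi)
    rw [Finset.sum_congr rfl this]
    simp
  have habs : |win h 1 L a| = L := by
    rw [hwin, abs_mul]
    rcases hs a with h1 | h1 <;> simp [h1]
  rw [habs] at hm
  have hLpos : (0 : ℤ) < L := by exact_mod_cast hL1
  have : (L : ℤ) * ((L : ℤ) ^ 2 + 2) ≤ (L : ℤ) * (3 * (n : ℤ)) := by nlinarith
  exact le_of_mul_le_mul_left this hLpos

end Vale.Agent.Results.P033.A_discrepancy
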