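import Mathlib

/-!
Window sums of the first row of a circulant Hadamard matrix.  The rows of `H` are orthogonal, so
`∑_j (∑_{i<L} h (j + i d))^2 = L n`.  A window sum changes by at most `2` per shift, so one window
of sum `S` forces the tent `S, S-2, S-4, ...` on both sides, of square sum `S (S^2+2) / 3`.
-/

open Finset

namespace Vale.Agent.Results.P033.A_windows

set_option linter.unusedSectionVars false

variable {n : ℕ} [NeZero n]

/-- `h` is the first row of a real circulant Hadamard matrix of order `n`. -/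
structure IsCirculantHadamard (n : ℕ) [NeZero n] (h : ZMod n → ℤ) : Prop where
  sign : ∀ j, h j = 1 ∨ h j = -1
  autocorr : ∀ t : ZMod n, t ≠ 0 → ∑ j, h j * h (j + t) = 0

/-- The sum of `h` along the progression `s, s + d, ..., s + (L - 1) d` in `ZMod n`. -/
def window (h : ZMod n → ℤ) (d : ZMod n) (L : ℕ) (s : ZMod n) : ℤ :=
  ∑ i ∈ range L, h (s + i • d)

variable {h : ZMod n → ℤ}

lemma mul_self_one (H : IsCirculantHadamard n h) (j : ZMod n) : h j * h j = 1 := by
  rcases H.sign j with e | e <;> simp [e]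

lemma abs_h (H : IsCirculantHadamard n h) (j : ZMod n) : |h j| = 1 := by
  rcases H.sign j with e | e <;> simp [e]

lemma nsmul_ne (d : ZMod n) (L : ℕ) (hd : ∀ i : ℕ, 0 < i → i < L → i • d ≠ 0)
    {a b : ℕ} (ha : a < L) (hb : b < L) (hab : a ≠ b) : b • d - a • d ≠ 0 := by
  intro h0
  have h1 : a • d = b • d := (sub_eq_zero.mp h0).symm
  rcases lt_or_gt_of_ne hab with hlt | hlt
  · obtain ⟨c, rfl⟩ := Nat.exists_eq_add_of_lt hlt
    refine hd (c + 1) (by omega) (by omega) ?_
    have : (a + c + 1) • d = a • d + (c + 1) • d := by rw [add_assoc, add_nsmul]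
    rw [this] at h1
    simpa using h1.symm
  · obtain ⟨c, rfl⟩ := Nat.exists_eq_add_of_lt hlt
    refine hd (c + 1) (by omega) (by omega) ?_
    have : (b + c + 1) • d = b • d + (c + 1) • d := by rw [add_assoc, add_nsmul]
    rw [this] at h1
    simpa using h1

lemma pair_sum (H : IsCirculantHadamard n h) (d : ZMod n) (L : ℕ)
    (hd : ∀ i : ℕ, 0 < i → i < L → i • d ≠ 0) {a b : ℕ} (ha : a < L) (hb : b < L) :
    ∑ j, h (j + a • d) * h (j + b • d) = if a = b then (n : ℤ) else 0 := by
  split_ifs with hab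
  · subst hab
    simp [mul_self_one H, ZMod.card]
  · have ht := nsmul_ne d L hd ha hb hab
    have h1 : ∀ j, h (j + a • d) * h (j + b • d)
        = (fun x => h x * h (x + (b • d - a • d))) (Equiv.addRight (a • d) j) := by
      intro j
      simp only [Equiv.coe_addRight]
      congr 2
      abel
    rw [Finset.sum_congr rfl (fun j _ => h1 j), Equiv.sum_comp (Equiv.addRight (a • d))
      (fun x => h x * h (x + (b • d - a • d)))]
    exact H.autocorr _ ht

/-- The energy identity: the sum of the squared window sums over all starting points is `L n`. -/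
lemma energy (H : IsCirculantHadamard n h) (d : ZMod n) (L : ℕ)
    (hd : ∀ i : ℕ, 0 < i → i < L → i • d ≠ 0) :
    ∑ j, (window h d L j) ^ 2 = L * n := by
  calc ∑ j, (window h d L j) ^ 2
      = ∑ j, ∑ a ∈ range L, ∑ b ∈ range L, h (j + a • d) * h (j + b • d) := by
        refine Finset.sum_congr rfl fun j _ => ?_
        rw [window, sq, Finset.sum_mul_sum]
    _ = ∑ a ∈ range L, ∑ b ∈ range L, ∑ j, h (j + a • d) * h (j + b • d) := by
        rw [Finset.sum_comm]
        refine Finset.sum_congr rfl fun a _ => ?_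
        rw [Finset.sum_comm]
    _ = ∑ a ∈ range L, ∑ b ∈ range L, (if a = b then (n : ℤ) else 0) := by
        refine Finset.sum_congr rfl fun a ha => Finset.sum_congr rfl fun b hb => ?_
        exact pair_sum H d L hd (Finset.mem_range.mp ha) (Finset.mem_range.mp hb)
    _ = L * n := by
        have : ∀ a ∈ range L, ∑ b ∈ range L, (if a = b then (n : ℤ) else 0) = n := by
          intro a ha
          rw [Finset.sum_ite_eq]
          simp [Finset.mem_range.mp ha]
        rw [Finset.sum_congr rfl this]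
        simp

lemma window_step (H : IsCirculantHadamard n h) (d : ZMod n) (L : ℕ) (j : ZMod n) :
    |window h d L (j + d) - window h d L j| ≤ 2 := by
  have h1 : window h d L (j + d) - window h d L j = h (j + L • d) - h j := by
    have := Finset.sum_range_sub (fun i : ℕ => h (j + i • d)) L
    simp only [zero_nsmul, add_zero] at this
    rw [← this, window, window, ← Finset.sum_sub_distrib]
    refine Finset.sum_congr rfl fun i _ => ?_
    congr 2
    rw [succ_nsmul]
    abel
  rw [h1]
  calc |h (j + L • d) - h j| ≤ |h (j + L • d)| + |h j| := abs_sub _ _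
    _ = 2 := by rw [abs_h H, abs_h H]; norm_num

lemma window_steps (H : IsCirculantHadamard n h) (d : ZMod n) (L : ℕ) (m : ℕ) (j : ZMod n) :
    |window h d L (j + m • d) - window h d L j| ≤ 2 * m := by
  induction m with
  | zero => simp
  | succ m ih =>
    have h1 := window_step H d L (j + m • d)
    have h2 : j + m • d + d = j + (m + 1) • d := by rw [succ_nsmul]; abel
    rw [h2] at h1
    have h3 : window h d L (j + (m + 1) • d) - window h d L j
        = (window h d L (j + (m + 1) • d) - window h d L (j + m • d))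
          + (window h d L (j + m • d) - window h d L j) := by ring
    rw [h3]
    push_cast
    calc _ ≤ |window h d L (j + (m + 1) • d) - window h d L (j + m • d)|
          + |window h d L (j + m • d) - window h d L j| := abs_add_le _ _
      _ ≤ 2 + 2 * m := add_le_add h1 ih
      _ = 2 * (m + 1) := by ring

lemma window_zsteps (H : IsCirculantHadamard n h) (d : ZMod n) (L : ℕ) (k : ℤ) (j : ZMod n) :
    |window h d L j| - 2 * |k| ≤ |window h d L (j + k • d)| := by
  have key : |window h d L (j + k • d) - window h d L j| ≤ 2 * |k| := by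
    rcases Int.eq_nat_or_neg k with ⟨m, rfl | rfl⟩
    · have := window_steps H d L m j
      simpa using this
    · have := window_steps H d L m (j + (-(m : ℤ)) • d)
      have e : j + (-(m : ℤ)) • d + m • d = j := by
        rw [neg_zsmul, natCast_zsmul]; abel
      rw [e, abs_sub_comm] at this
      simpa using this
  have h1 : |window h d L j| ≤ |window h d L (j + k • d)| + |window h d L (j + k • d) - window h d L j| := by
    have := abs_sub_abs_le_abs_sub (window h d L j) (window h d L (j + k • d))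
    rw [abs_sub_comm (window h d L j)] at this
    linarith
  linarith

lemma sum_Icc_symm (g : ℤ → ℤ) (m : ℕ) :
    ∑ k ∈ Icc (-(m : ℤ)) m, g |k| = g 0 + 2 * ∑ k ∈ range m, g ((k : ℤ) + 1) := by
  induction m with
  | zero => simp
  | succ m ih =>
    have e : Icc (-((m + 1 : ℕ) : ℤ)) ((m + 1 : ℕ) : ℤ)
        = insert ((m : ℤ) + 1) (insert (-((m : ℤ) + 1)) (Icc (-(m : ℤ)) m)) := by
      ext x
      simp only [Finset.mem_Icc, Finset.mem_insert]
      push_cast
      omega
    rw [e, Finset.sum_insert, Finset.sum_insert, ih, Finset.sum_range_succ]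
    · have h1 : |(m : ℤ) + 1| = (m : ℤ) + 1 := abs_of_nonneg (by positivity)
      have h2 : |(-((m : ℤ) + 1))| = (m : ℤ) + 1 := by rw [abs_neg, h1]
      rw [h1, h2]
      ring
    · simp only [Finset.mem_Icc, not_and, not_le]
      omega
    · simp only [Finset.mem_insert, Finset.mem_Icc, not_or, not_and, not_le]
      constructor <;> omega

lemma tent_sum (S : ℤ) (m : ℕ) :
    3 * ∑ k ∈ range m, (S - 2 * ((k : ℤ) + 1)) ^ 2
      = 3 * m * S ^ 2 - 6 * S * (m * (m + 1)) + 2 * (m * (m + 1) * (2 * m + 1)) := by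
  induction m with
  | zero => simp
  | succ m ih =>
    rw [Finset.sum_range_succ, mul_add, ih]
    push_cast
    ring

lemma tent_value (S : ℕ) (hS : 0 < S) :
    3 * ∑ k ∈ Icc (-(((S - 1) / 2 : ℕ) : ℤ)) (((S - 1) / 2 : ℕ) : ℤ), ((S : ℤ) - 2 * |k|) ^ 2
      = (S : ℤ) * ((S : ℤ) ^ 2 + 2) := by
  have h1 := sum_Icc_symm (fun x => ((S : ℤ) - 2 * x) ^ 2) ((S - 1) / 2)
  rw [h1, mul_add, mul_left_comm, tent_sum]
  obtain ⟨m, hm | hm⟩ : ∃ m : ℕ, S = 2 * m + 1 ∨ S = 2 * m + 2 := ⟨(S - 1) / 2, by omega⟩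
  · have e : (S - 1) / 2 = m := by omega
    rw [e, hm]
    push_cast
    ring
  · have e : (S - 1) / 2 = m := by omega
    rw [e, hm]
    push_cast
    ring

/-- Packing form: separated windows of sum at least `S` in absolute value. -/
theorem packing (H : IsCirculantHadamard n h) (d : ZMod n) (L : ℕ)
    (hd : ∀ i : ℕ, 0 < i → i < L → i • d ≠ 0) (A : Finset (ZMod n)) (S : ℕ)
    (hS : ∀ s ∈ A, (S : ℤ) ≤ |window h d L s|)
    (hsep : ∀ s ∈ A, ∀ s' ∈ A, ∀ k : ℤ, |k| < S → s' = s + k • d → k = 0) :
    (A.card : ℤ) * ((S : ℤ) * ((S : ℤ) ^ 2 + 2)) ≤ 3 * (L * n) := by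
  rcases Nat.eq_zero_or_pos S with rfl | hpos
  · simp only [Nat.cast_zero, zero_mul, mul_zero]
    positivity
  set m := (S - 1) / 2 with hm
  let P := A ×ˢ Icc (-(m : ℤ)) m
  let φ : ZMod n × ℤ → ZMod n := fun p => p.1 + p.2 • d
  have hm2 : 2 * (m : ℤ) < S := by
    have : 2 * m < S := by omega
    exact_mod_cast this
  have hinj : Set.InjOn φ (P : Set (ZMod n × ℤ)) := by
    rintro ⟨s, k⟩ hp ⟨s', k'⟩ hp' he
    simp only [P, Finset.coe_product, Set.mem_prod, Finset.mem_coe, Finset.mem_Icc] at hp hp'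
    simp only [φ] at he
    have h0 : s' = s + (k - k') • d := by
      rw [sub_zsmul]
      have : s' = s' + k' • d - k' • d := by abel
      rw [this, ← he]
      abel
    have hk : |k - k'| < S := by
      rw [abs_lt]
      constructor <;> linarith [hp.2.1, hp.2.2, hp'.2.1, hp'.2.2]
    have h1 := hsep s hp.1 s' hp'.1 (k - k') hk h0
    have h2 : k = k' := by linarith
    subst h2
    simp at h0
    rw [h0]
  have hlow : ∑ p ∈ P, ((S : ℤ) - 2 * |p.2|) ^ 2 ≤ ∑ p ∈ P, (window h d L (φ p)) ^ 2 := by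
    refine Finset.sum_le_sum fun p hp => ?_
    simp only [P, Finset.mem_product, Finset.mem_Icc] at hp
    have h1 := window_zsteps H d L p.2 p.1
    have h2 := hS p.1 hp.1
    have h3 : 0 ≤ (S : ℤ) - 2 * |p.2| := by
      have : |p.2| ≤ m := abs_le.mpr hp.2
      linarith
    have h4 : (S : ℤ) - 2 * |p.2| ≤ |window h d L (φ p)| := by
      simp only [φ]
      linarith
    have h5 := pow_le_pow_left₀ h3 h4 2
    rwa [sq_abs] at h5
  have hup : ∑ p ∈ P, (window h d L (φ p)) ^ 2 ≤ ∑ j, (window h d L j) ^ 2 := by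
    rw [← Finset.sum_image (f := fun j => (window h d L j) ^ 2) hinj]
    exact Finset.sum_le_univ_sum_of_nonneg (fun j => sq_nonneg _)
  have hval : ∑ p ∈ P, ((S : ℤ) - 2 * |p.2|) ^ 2
      = (A.card : ℤ) * ∑ k ∈ Icc (-(m : ℤ)) m, ((S : ℤ) - 2 * |k|) ^ 2 := by
    simp only [P]
    rw [Finset.sum_product]
    simp
  have ht := tent_value S hpos
  rw [← hm] at ht
  rw [energy H d L hd] at hup
  rw [hval] at hlow
  calc (A.card : ℤ) * ((S : ℤ) * ((S : ℤ) ^ 2 + 2))
      = 3 * ((A.card : ℤ) * ∑ k ∈ Icc (-(m : ℤ)) m, ((S : ℤ) - 2 * |k|) ^ 2) := by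
        rw [← ht]; ring
    _ ≤ 3 * (L * n) := by linarith

lemma window_abs_le (H : IsCirculantHadamard n h) (d : ZMod n) (L : ℕ) (s : ZMod n) :
    |window h d L s| ≤ L := by
  calc |window h d L s| ≤ ∑ i ∈ range L, |h (s + i • d)| := Finset.abs_sum_le_sum_abs _ _
    _ = L := by simp [abs_h H]

lemma single_sep (d : ZMod n) (L : ℕ) (hd : ∀ i : ℕ, 0 < i → i < L → i • d ≠ 0) (s : ZMod n)
    (S : ℕ) (hSL : S ≤ L) (k : ℤ) (hk : |k| < S) (he : s = s + k • d) : k = 0 := by
  have h0 : k • d = 0 := by simpa using he.symm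
  by_contra hne
  have hpos : 0 < k.natAbs := Int.natAbs_pos.mpr hne
  have hlt : k.natAbs < L := by
    have : ((k.natAbs : ℕ) : ℤ) < S := by rwa [Int.natCast_natAbs]
    have : k.natAbs < S := by exact_mod_cast this
    omega
  refine hd _ hpos hlt ?_
  rcases Int.natAbs_eq k with e | e
  · rw [e] at h0
    simpa using h0
  · rw [e] at h0
    simpa using h0

/-- Every window: `S (S^2 + 2) ≤ 3 L n` for `S` the absolute value of its sum. -/
theorem single_window (H : IsCirculantHadamard n h) (d : ZMod n) (L : ℕ)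
    (hd : ∀ i : ℕ, 0 < i → i < L → i • d ≠ 0) (s : ZMod n) :
    |window h d L s| * (|window h d L s| ^ 2 + 2) ≤ 3 * (L * n) := by
  have hpos : 0 ≤ window h d L s ∨ window h d L s ≤ 0 := le_total _ _
  set S := (window h d L s).natAbs with hS
  have hSe : (S : ℤ) = |window h d L s| := Int.natCast_natAbs _
  have hSL : S ≤ L := by
    have : (S : ℤ) ≤ L := by rw [hSe]; exact window_abs_le H d L s
    exact_mod_cast this
  have := packing H d L hd {s} S (by
    intro x hx
    rw [Finset.mem_singleton] at hx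
    subst hx
    rw [hSe]) (by
    intro x hx y hy k hk he
    rw [Finset.mem_singleton] at hx hy
    rw [hx, hy] at he
    exact single_sep d L hd s S hSL k hk he)
  simpa [hSe] using this

/-- Monochromatic windows: the sum is `± L`. -/
lemma window_mono (d : ZMod n) (L : ℕ) (s : ZMod n) (e : ℤ) (he : e = 1 ∨ e = -1)
    (hm : ∀ i < L, h (s + i • d) = e) : |window h d L s| = L := by
  have : window h d L s = L * e := by
    rw [window, Finset.sum_congr rfl (fun i hi => hm i (Finset.mem_range.mp hi))]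
    simp
  rw [this]
  rcases he with rfl | rfl <;> simp

/-- The class is not empty: the first row `(1, 1, 1, -1)` of order `4`. -/
theorem example_four : IsCirculantHadamard 4 (fun j => if j = 3 then -1 else 1) :=
  ⟨by decide, by decide⟩

/-- **Main theorem.**  Let `h` be the first row of a real circulant Hadamard matrix of order `n`.
(1) For a progression `s, s + d, ..., s + (L - 1) d` with distinct terms, the absolute value `S` of
its sum satisfies `S (S^2 + 2) ≤ 3 L n`.
(2) A monochromatic such progression with `L ≥ 1` has `L^2 + 2 ≤ 3 n`.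
(3) In particular every run of equal signs in the first row (`d = 1`, `L ≤ n`) has `L^2 + 2 ≤ 3 n`.
(4) If monochromatic progressions of length `L ≥ 1` start at the points of `A`, and the points of
`A` differ by no `k d` with `0 < |k| < L`, then `|A| (L^2 + 2) ≤ 3 n`; so the first row has at most
`3 n / (L^2 + 2)` runs of length at least `L`. -/
theorem result {n : ℕ} [NeZero n] {h : ZMod n → ℤ} (H : IsCirculantHadamard n h) :
    (∀ (d s : ZMod n) (L : ℕ), (∀ i : ℕ, 0 < i → i < L → i • d ≠ 0) →
      |window h d L s| * (|window h d L s| ^ 2 + 2) ≤ 3 * (L * n)) ∧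
    (∀ (d s : ZMod n) (L : ℕ) (e : ℤ), 0 < L → (∀ i : ℕ, 0 < i → i < L → i • d ≠ 0) →
      (e = 1 ∨ e = -1) → (∀ i < L, h (s + i • d) = e) → L ^ 2 + 2 ≤ 3 * n) ∧
    (∀ (s : ZMod n) (L : ℕ) (e : ℤ), 0 < L → L ≤ n → (e = 1 ∨ e = -1) →
      (∀ i < L, h (s + (i : ZMod n)) = e) → L ^ 2 + 2 ≤ 3 * n) ∧
    (∀ (d : ZMod n) (L : ℕ) (A : Finset (ZMod n)), 0 < L →
      (∀ i : ℕ, 0 < i → i < L → i • d ≠ 0) →
      (∀ s ∈ A, (∀ i < L, h (s + i • d) = 1) ∨ (∀ i < L, h (s + i • d) = -1)) →
      (∀ s ∈ A, ∀ s' ∈ A, ∀ k : ℤ, |k| < L → s' = s + k • d → k = 0) →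
      A.card * (L ^ 2 + 2) ≤ 3 * n) := by
  have mono : ∀ (d s : ZMod n) (L : ℕ) (e : ℤ), 0 < L → (∀ i : ℕ, 0 < i → i < L → i • d ≠ 0) →
      (e = 1 ∨ e = -1) → (∀ i < L, h (s + i • d) = e) → L ^ 2 + 2 ≤ 3 * n := by
    intro d s L e hL hd he hm
    have h1 := single_window H d L hd s
    rw [window_mono d L s e he hm] at h1
    have h2 : (L : ℤ) * ((L : ℤ) ^ 2 + 2) ≤ L * (3 * n) := by linarith
    have h3 : (L : ℤ) ^ 2 + 2 ≤ 3 * n :=
      le_of_mul_le_mul_left h2 (by exact_mod_cast hL)
    exact_mod_cast h3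
  refine ⟨fun d s L hd => single_window H d L hd s, mono, ?_, ?_⟩
  · intro s L e hL hLn he hm
    refine mono 1 s L e hL ?_ he ?_
    · intro i hi hiL hz
      have : (i : ZMod n) = 0 := by simpa using hz
      rw [ZMod.natCast_eq_zero_iff] at this
      have := Nat.le_of_dvd hi this
      omega
    · intro i hi
      have := hm i hi
      simpa using this
  · intro d L A hL hd hA hsep
    have h1 := packing H d L hd A L (by
      intro s hs
      rcases hA s hs with hm | hm
      · rw [window_mono d L s 1 (Or.inl rfl) hm]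
      · rw [window_mono d L s (-1) (Or.inr rfl) hm]) hsep
    have h2 : (L : ℤ) * ((A.card : ℤ) * ((L : ℤ) ^ 2 + 2)) ≤ L * (3 * n) := by linarith
    have h3 : (A.card : ℤ) * ((L : ℤ) ^ 2 + 2) ≤ 3 * n :=
      le_of_mul_le_mul_left h2 (by exact_mod_cast hL)
    exact_mod_cast h3

end Vale.Agent.Results.P033.A_windows
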